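import Mathlib

/-! Planar point sets with few convex layers have few directed m-edges (in particular few
halving lines): an alternation argument at an extreme point of the inner layers. -/

namespace Vale.Agent.Results.P065.LayeredSets

open Finset

/-- planar cross product -/
def cr (a b : ℝ × ℝ) : ℝ := a.1 * b.2 - a.2 * b.1

lemma cr_swap (a b : ℝ × ℝ) : cr b a = -cr a b := by unfold cr; ring

lemma cr_three (A B : ℝ) (x y z : ℝ × ℝ) :
    cr x y * (A * z.1 + B * z.2) + cr y z * (A * x.1 + B * x.2)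
      + cr z x * (A * y.1 + B * y.2) = 0 := by
  unfold cr; ring

lemma cr_pluck (a b r x : ℝ × ℝ) :
    cr a b * cr r x = cr a r * cr b x - cr a x * cr b r := by
  unfold cr; ring

/-- number of points strictly to the right of the directed line from `p` to `q` -/
noncomputable def rt (P : Finset (ℝ × ℝ)) (p q : ℝ × ℝ) : ℕ :=
  (P.filter fun x => cr (q - p) (x - p) < 0).card

lemma rt_rev (P : Finset (ℝ × ℝ)) (p q : ℝ × ℝ) :
    rt P q p = (P.filter fun x => 0 < cr (q - p) (x - p)).card := by
  unfold rt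
  congr 1
  refine filter_congr fun x _ => ?_
  have : cr (p - q) (x - q) = -cr (q - p) (x - p) := by
    unfold cr; simp only [Prod.fst_sub, Prod.snd_sub]; ring
  rw [this]; simp

/-- general position -/
def GP (P : Finset (ℝ × ℝ)) : Prop :=
  ∀ p ∈ P, ∀ q ∈ P, ∀ r ∈ P, p ≠ q → r ≠ p → r ≠ q → cr (q - p) (r - p) ≠ 0

lemma rt_add {P : Finset (ℝ × ℝ)} (hg : GP P) {p q : ℝ × ℝ} (hp : p ∈ P) (hq : q ∈ P)
    (hpq : p ≠ q) : rt P p q + rt P q p + 2 = P.card := by
  classical
  rw [rt_rev P p q]; unfold rt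
  have hd : Disjoint (P.filter fun x => cr (q - p) (x - p) < 0)
      (P.filter fun x => 0 < cr (q - p) (x - p)) := by
    rw [disjoint_left]; intro x h1 h2; rw [mem_filter] at h1 h2; linarith [h1.2, h2.2]
  rw [← card_union_of_disjoint hd]
  have h2 : ({p, q} : Finset (ℝ × ℝ)).card = 2 := card_pair hpq
  have hsub : ({p, q} : Finset (ℝ × ℝ)) ⊆ P := by
    intro x hx; simp only [mem_insert, mem_singleton] at hx; rcases hx with rfl | rfl <;> assumption
  have he : (P.filter fun x => cr (q - p) (x - p) < 0) ∪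
      (P.filter fun x => 0 < cr (q - p) (x - p)) = P \ {p, q} := by
    ext x
    simp only [mem_union, mem_filter, mem_sdiff, mem_insert, mem_singleton, not_or]
    constructor
    · rintro (⟨h, h'⟩ | ⟨h, h'⟩)
      all_goals
        refine ⟨h, ?_, ?_⟩
        · rintro rfl; unfold cr at h'; simp at h'
        · rintro rfl; unfold cr at h'; simp [mul_comm] at h'
    · rintro ⟨h, hxp, hxq⟩
      rcases lt_or_gt_of_ne (hg p hp q hq x h hpq hxp hxq) with h' | h'
      · exact Or.inl ⟨h, h'⟩
      · exact Or.inr ⟨h, h'⟩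
  rw [he, card_sdiff_of_subset hsub, h2]
  have := card_le_card hsub
  omega

/-- Alternation: between two consecutive forward edges there is a backward one. -/
lemma alternation {P : Finset (ℝ × ℝ)} (hg : GP P) {p q q' : ℝ × ℝ} (hp : p ∈ P)
    (hq : q ∈ P) (hq' : q' ∈ P) (hab : 0 < cr (q - p) (q' - p)) {m : ℕ}
    (hm : rt P p q = m) (hm' : rt P p q' = m) :
    ∃ r ∈ P, cr (q - p) (r - p) < 0 ∧ 0 < cr (q' - p) (r - p) ∧ rt P r p = m := by
  classical
  have hqp : q ≠ p := by rintro rfl; simp [cr] at hab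
  have hq'p : q' ≠ p := by rintro rfl; simp [cr] at hab
  have hne : q ≠ q' := by rintro rfl; simp [cr, mul_comm] at hab
  set a := q - p with ha
  set b := q' - p with hb
  set Bk := P.filter (fun x => cr a (x - p) < 0 ∧ 0 < cr b (x - p)) with hBk
  set key : ℝ × ℝ → ℝ := fun x => cr a (x - p) / (cr a (x - p) - cr b (x - p)) with hkey
  -- the count to the right of the line through p directed away from x
  have hG : ∀ x, rt P x p = (P.filter fun y => 0 < cr (x - p) (y - p)).card := fun x =>
    rt_rev P p x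
  have z0 : ∀ x ∈ P, cr a (x - p) = 0 → x = p ∨ x = q := by
    intro x hx h; by_contra hc; push Not at hc
    exact hg p hp q hq x hx hqp.symm hc.1 hc.2 h
  have z1 : ∀ x ∈ P, cr b (x - p) = 0 → x = p ∨ x = q' := by
    intro x hx h; by_contra hc; push Not at hc
    exact hg p hp q' hq' x hx hq'p.symm hc.1 hc.2 h
  have hbp : cr b (p - p) = 0 := by simp [cr]
  have hap : cr a (p - p) = 0 := by simp [cr]
  have hba : cr b a < 0 := by rw [cr_swap]; linarith
  have keylt : ∀ x ∈ Bk, ∀ y ∈ Bk, (key x < key y ↔ 0 < cr (x - p) (y - p)) := by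
    intro x hx y hy
    rw [hBk, mem_filter] at hx hy
    have fx : cr a (x - p) - cr b (x - p) < 0 := by linarith [hx.2.1, hx.2.2]
    have fy : cr a (y - p) - cr b (y - p) < 0 := by linarith [hy.2.1, hy.2.2]
    have hpos := mul_pos_of_neg_of_neg fx fy
    have e : key y - key x = cr a b * cr (x - p) (y - p)
        / ((cr a (x - p) - cr b (x - p)) * (cr a (y - p) - cr b (y - p))) := by
      rw [hkey, div_sub_div _ _ fy.ne fx.ne, cr_pluck]
      rw [div_eq_div_iff (mul_ne_zero fy.ne fx.ne) (mul_ne_zero fx.ne fy.ne)]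
      ring
    rw [← sub_pos, e, div_pos_iff_of_pos_right hpos]
    exact ⟨fun h => (pos_iff_pos_of_mul_pos h).1 hab, fun h => mul_pos hab h⟩
  have hsub0 : insert q (P.filter fun x => cr a (x - p) < 0) ⊆
      P.filter (fun x => cr b (x - p) < 0 ∨ (cr a (x - p) < 0 ∧ 0 < cr b (x - p))) := by
    intro x hx
    rw [mem_insert, mem_filter] at hx
    rcases hx with rfl | ⟨hxP, hx⟩
    · exact mem_filter.2 ⟨hq, Or.inl hba⟩
    · refine mem_filter.2 ⟨hxP, ?_⟩
      rcases lt_trichotomy (cr b (x - p)) 0 with h | h | h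
      · exact Or.inl h
      · rcases z1 x hxP h with rfl | rfl
        · linarith
        · rw [← hb] at hx; linarith
      · exact Or.inr ⟨hx, h⟩
  have hins : (insert q (P.filter fun x => cr a (x - p) < 0)).card = m + 1 := by
    rw [card_insert_of_notMem (by rw [mem_filter, ← ha]; simp [cr, mul_comm]), ← hm]
    rfl
  have hBne : Bk.Nonempty := by
    by_contra hc
    rw [not_nonempty_iff_eq_empty] at hc
    have : insert q (P.filter fun x => cr a (x - p) < 0) ⊆
        P.filter fun x => cr b (x - p) < 0 := by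
      intro x hx
      have h := mem_filter.1 (hsub0 hx)
      rcases h.2 with h' | h'
      · exact mem_filter.2 ⟨h.1, h'⟩
      · have hxB : x ∈ Bk := mem_filter.2 ⟨h.1, h'⟩
        rw [hc] at hxB
        exact absurd hxB (notMem_empty x)
    have h := card_le_card this
    rw [hins] at h
    have : (P.filter fun x => cr b (x - p) < 0).card = m := hm'
    omega
  obtain ⟨rm, hrm, hmax⟩ := Bk.exists_max_image key hBne
  have hrm' : rt P rm p ≤ m := by
    rw [hG, ← hm']
    apply card_le_card
    intro x hx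
    rw [mem_filter] at hx ⊢
    refine ⟨hx.1, ?_⟩
    show cr b (x - p) < 0
    by_contra hc; push Not at hc
    have hrB := (mem_filter.1 hrm).2
    have e := cr_pluck a b (rm - p) (x - p)
    have h1 := mul_pos hab hx.2
    have h2 : cr a (rm - p) * cr b (x - p) ≤ 0 := mul_nonpos_of_nonpos_of_nonneg hrB.1.le hc
    have hx0 : cr a (x - p) < 0 := by
      by_contra h3; push Not at h3
      linarith [mul_nonneg h3 hrB.2.le]
    have hx1 : 0 < cr b (x - p) := by
      refine lt_of_le_of_ne hc fun h => ?_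
      rcases z1 x hx.1 h.symm with rfl | rfl
      · linarith
      · rw [← hb] at hx0; linarith
    have hxB : x ∈ Bk := mem_filter.2 ⟨hx.1, hx0, hx1⟩
    have := (keylt rm hrm x hxB).2 hx.2
    linarith [hmax x hxB]
  set B' := Bk.filter (fun x => rt P x p ≤ m) with hB'
  obtain ⟨r, hr, hmin⟩ := B'.exists_min_image key ⟨rm, mem_filter.2 ⟨hrm, hrm'⟩⟩
  obtain ⟨hrB, hrle⟩ := mem_filter.1 hr
  obtain ⟨hrP, hra, hrb⟩ := mem_filter.1 hrB
  refine ⟨r, hrP, hra, hrb, le_antisymm hrle ?_⟩
  by_contra hlt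
  push Not at hlt
  have hrp : r ≠ p := by rintro rfl; linarith
  by_cases hB0 : (Bk.filter fun x => key x < key r).Nonempty
  · obtain ⟨s, hs, hsmax⟩ := (Bk.filter fun x => key x < key r).exists_max_image key hB0
    obtain ⟨hsB, hskey⟩ := mem_filter.1 hs
    obtain ⟨hsP, hsa, hsb⟩ := mem_filter.1 hsB
    have hsr : 0 < cr (s - p) (r - p) := (keylt s hsB r hrB).1 hskey
    have hsub : (P.filter fun x => 0 < cr (s - p) (x - p)) ⊆
        insert r (P.filter fun x => 0 < cr (r - p) (x - p)) := by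
      intro x hx
      rw [mem_filter] at hx
      rw [mem_insert, mem_filter]
      by_contra hc; push Not at hc
      obtain ⟨hxr, hc⟩ := hc
      have hxp : x ≠ p := by rintro rfl; simp [cr] at hx
      have hxr' : 0 < cr (x - p) (r - p) := by
        rw [cr_swap]
        have := lt_of_le_of_ne (hc hx.1) (hg p hp r hrP x hx.1 hrp.symm hxp hxr)
        linarith
      have ep := cr_pluck a b (r - p) (x - p)
      have es := cr_pluck a b (s - p) (x - p)
      have n1 : cr a b * cr (r - p) (x - p) ≤ 0 :=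
        mul_nonpos_of_nonneg_of_nonpos hab.le (hc hx.1)
      have n2 := mul_pos hab hx.2
      -- x is neither ahead of both ends nor behind both
      have hxa : cr a (x - p) < 0 := by
        by_contra h; push Not at h
        have h3 : cr b (x - p) < 0 := by
          by_contra h'; push Not at h'
          linarith [mul_nonpos_of_nonpos_of_nonneg hsa.le h', mul_nonneg h hsb.le]
        have f1 : cr a (s - p) - cr b (s - p) < 0 := by linarith
        have f2 : cr a (r - p) - cr b (r - p) < 0 := by linarith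
        have f3 : 0 < cr a (x - p) - cr b (x - p) := by linarith
        have t := cr_three (b.2 - a.2) (a.1 - b.1) (s - p) (x - p) (r - p)
        have g1 : ∀ v : ℝ × ℝ, (b.2 - a.2) * v.1 + (a.1 - b.1) * v.2 = cr a v - cr b v := by
          intro v; unfold cr; ring
        rw [g1, g1, g1] at t
        have := cr_swap (s - p) (r - p)
        nlinarith [mul_neg_of_pos_of_neg hx.2 f2, mul_neg_of_pos_of_neg hxr' f1,
          mul_pos hsr f3]
      have hxb : 0 < cr b (x - p) := by
        by_contra h; push Not at h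
        linarith [mul_nonneg_of_nonpos_of_nonpos hra.le h, mul_neg_of_neg_of_pos hxa hrb]
      have hxB : x ∈ Bk := mem_filter.2 ⟨hx.1, hxa, hxb⟩
      have k1 := (keylt s hsB x hxB).2 hx.2
      have k2 := (keylt x hxB r hrB).2 hxr'
      linarith [hsmax x (mem_filter.2 ⟨hxB, k2⟩)]
    have h := (card_le_card hsub).trans (card_insert_le _ _)
    rw [← hG, ← hG] at h
    have := hmin s (mem_filter.2 ⟨hsB, by omega⟩)
    linarith
  · have hsub : insert q (P.filter fun x => cr a (x - p) < 0) ⊆
        insert r (P.filter fun x => 0 < cr (r - p) (x - p)) := by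
      intro x hx
      obtain ⟨hxP, hx2⟩ := mem_filter.1 (hsub0 hx)
      rw [mem_insert, mem_filter]
      rcases hx2 with h | ⟨h, h'⟩
      · right
        refine ⟨hxP, ?_⟩
        rw [mem_insert, mem_filter] at hx
        have h0 : cr a (x - p) ≤ 0 := by
          rcases hx with rfl | hx
          · simp [ha, cr, mul_comm]
          · exact hx.2.le
        have e := cr_pluck a b (r - p) (x - p)
        have : 0 < cr a b * cr (r - p) (x - p) := by
          linarith [mul_pos_of_neg_of_neg hra h, mul_nonpos_of_nonpos_of_nonneg h0 hrb.le]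
        exact (pos_iff_pos_of_mul_pos this).1 hab
      · have hxB : x ∈ Bk := mem_filter.2 ⟨hxP, h, h'⟩
        rw [not_nonempty_iff_eq_empty, filter_eq_empty_iff] at hB0
        have hle : key r ≤ key x := not_lt.1 (hB0 hxB)
        by_cases hxr : x = r
        · exact Or.inl hxr
        · right
          refine ⟨hxP, ?_⟩
          have hxp : x ≠ p := by rintro rfl; linarith
          rcases lt_or_gt_of_ne (hg p hp r hrP x hxP hrp.symm hxp hxr) with hneg | hpos
          · have := (keylt x hxB r hrB).2 (by rw [cr_swap]; linarith)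
            linarith
          · exact hpos
    have h := (card_le_card hsub).trans (card_insert_le _ _)
    rw [hins, ← hG] at h
    omega

/-- At a point outside the convex hull of the inner points, inner forward edges are at most
one more than outer backward edges. -/
lemma inner_le {P : Finset (ℝ × ℝ)} (hg : GP P) (lev : ℝ × ℝ → ℕ)
    (hext : ∀ p ∈ P, p ∉ convexHull ℝ
      (↑(P.filter fun q => q ≠ p ∧ lev p ≤ lev q) : Set (ℝ × ℝ)))
    {p : ℝ × ℝ} (hp : p ∈ P) (m : ℕ) :
    (P.filter fun q => p ≠ q ∧ rt P p q = m ∧ lev p ≤ lev q).card ≤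
      (P.filter fun r => r ≠ p ∧ rt P r p = m ∧ lev r < lev p).card + 1 := by
  classical
  obtain ⟨f, u, hfp, hfS⟩ := geometric_hahn_banach_point_closed (convex_convexHull ℝ _)
    ((finite_toSet (P.filter fun q => q ≠ p ∧ lev p ≤ lev q)).isClosed_convexHull ℝ) (hext p hp)
  set A := f (1, 0) with hA
  set B := f (0, 1) with hB
  have hf : ∀ v : ℝ × ℝ, f v = A * v.1 + B * v.2 := by
    intro v
    conv_lhs => rw [show v = v.1 • ((1 : ℝ), (0 : ℝ)) + v.2 • ((0 : ℝ), (1 : ℝ)) by ext <;> simp]
    rw [map_add, map_smul, map_smul, smul_eq_mul, smul_eq_mul, ← hA, ← hB]; ring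
  have hinner : ∀ x ∈ P, x ≠ p → lev p ≤ lev x → 0 < A * (x - p).1 + B * (x - p).2 := by
    intro x hx hxp hl
    have := hfS x (subset_convexHull ℝ _ (mem_coe.2 (mem_filter.2 ⟨hx, hxp, hl⟩)))
    rw [← hf, map_sub]; linarith
  set Q := P.filter fun q => p ≠ q ∧ rt P p q = m ∧ lev p ≤ lev q with hQ
  rcases Q.eq_empty_or_nonempty with h | hne
  · rw [h]; simp
  have posQ : ∀ x ∈ Q, 0 < A * (x - p).1 + B * (x - p).2 := fun x hx => by
    obtain ⟨a, b, _, d⟩ := mem_filter.1 hx; exact hinner x a b.symm d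
  set key : ℝ × ℝ → ℝ := fun x =>
    (A * (x - p).2 - B * (x - p).1) / (A * (x - p).1 + B * (x - p).2) with hkey
  have keylt : ∀ x ∈ Q, ∀ y ∈ Q, key x < key y → 0 < cr (x - p) (y - p) := by
    intro x hx y hy h
    rw [hkey, div_lt_div_iff₀ (posQ x hx) (posQ y hy)] at h
    have : 0 < (A ^ 2 + B ^ 2) * cr (x - p) (y - p) := by unfold cr; nlinarith
    by_contra hc; push Not at hc
    have : (A ^ 2 + B ^ 2) * cr (x - p) (y - p) ≤ 0 :=
      mul_nonpos_of_nonneg_of_nonpos (by positivity) hc
    linarith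
  have keyinj : ∀ x ∈ Q, ∀ y ∈ Q, key x = key y → x = y := by
    intro x hx y hy h
    by_contra hxy
    obtain ⟨hxP, hx1, -, -⟩ := mem_filter.1 hx
    obtain ⟨hyP, hy1, -, -⟩ := mem_filter.1 hy
    apply hg p hp x hxP y hyP hx1 hy1.symm (Ne.symm hxy)
    rw [hkey, div_eq_div_iff (posQ x hx).ne' (posQ y hy).ne'] at h
    have h' : (A ^ 2 + B ^ 2) * cr (x - p) (y - p) = 0 := by unfold cr; linarith
    have : A ^ 2 + B ^ 2 ≠ 0 := by
      intro h0
      have hA0 : A = 0 := by nlinarith [sq_nonneg A, sq_nonneg B]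
      have hB0 : B = 0 := by nlinarith [sq_nonneg A, sq_nonneg B]
      have := posQ x hx; rw [hA0, hB0] at this; simp at this
    exact (mul_eq_zero.1 h').resolve_left this
  obtain ⟨top, htop, hmax⟩ := Q.exists_max_image key hne
  set O := P.filter fun r => r ≠ p ∧ rt P r p = m ∧ lev r < lev p with hO
  have hex : ∀ x ∈ Q.erase top, ∃ r ∈ O, cr (x - p) (r - p) < 0 ∧
      ∀ y ∈ Q, key x < key y → 0 < cr (y - p) (r - p) := by
    intro x hx
    obtain ⟨hxt, hxQ⟩ := mem_erase.1 hx
    have hlt : key x < key top :=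
      lt_of_le_of_ne (hmax x hxQ) fun h => hxt (keyinj x hxQ top htop h)
    obtain ⟨nx, hnx, hmin⟩ := (Q.filter fun y => key x < key y).exists_min_image key
      ⟨top, mem_filter.2 ⟨htop, hlt⟩⟩
    obtain ⟨hnxQ, hkn⟩ := mem_filter.1 hnx
    have hab := keylt x hxQ nx hnxQ hkn
    obtain ⟨r, hrP, hr1, hr2, hr3⟩ := alternation hg hp (mem_filter.1 hxQ).1
      (mem_filter.1 hnxQ).1 hab (mem_filter.1 hxQ).2.2.1 (mem_filter.1 hnxQ).2.2.1
    have hrp : r ≠ p := by rintro rfl; simp [cr] at hr1
    have hfr : A * (r - p).1 + B * (r - p).2 < 0 := by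
      have t := cr_three A B (x - p) (nx - p) (r - p)
      by_contra hc; push Not at hc
      nlinarith [mul_nonneg hab.le hc, mul_pos hr2 (posQ x hxQ),
        mul_neg_of_neg_of_pos hr1 (posQ nx hnxQ), cr_swap (x - p) (r - p)]
    refine ⟨r, mem_filter.2 ⟨hrP, hrp, hr3, ?_⟩, hr1, ?_⟩
    · by_contra hc; push Not at hc
      linarith [hinner r hrP hrp hc]
    · intro y hy hxy
      rcases (hmin y (mem_filter.2 ⟨hy, hxy⟩)).lt_or_eq with h | h
      · have t := cr_three A B (nx - p) (y - p) (r - p)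
        by_contra hc; push Not at hc
        nlinarith [mul_neg_of_pos_of_neg (keylt nx hnxQ y hy h) hfr, mul_pos hr2 (posQ y hy),
          mul_nonpos_of_nonpos_of_nonneg hc (posQ nx hnxQ).le, cr_swap (nx - p) (r - p)]
      · rw [← keyinj nx hnxQ y hy h]; exact hr2
  choose! g hg1 hg2 hg3 using hex
  have hle : (Q.erase top).card ≤ O.card := by
    refine card_le_card_of_injOn g (fun x hx => hg1 x hx) ?_
    intro x hx y hy hxy
    rw [mem_coe] at hx hy
    rcases lt_trichotomy (key x) (key y) with h | h | h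
    · have := hg3 x hx y (mem_of_mem_erase hy) h
      rw [hxy] at this; linarith [hg2 y hy]
    · exact keyinj x (mem_of_mem_erase hx) y (mem_of_mem_erase hy) h
    · have := hg3 y hy x (mem_of_mem_erase hx) h
      rw [← hxy] at this; linarith [hg2 x hx]
  have := card_erase_add_one htop
  omega

/-- Edges leaving a point towards its own or an inner layer, summed over the first J+1 layers. -/
lemma inner_sum {P : Finset (ℝ × ℝ)} (hg : GP P) (lev : ℝ × ℝ → ℕ)
    (hext : ∀ p ∈ P, p ∉ convexHull ℝ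
      (↑(P.filter fun q => q ≠ p ∧ lev p ≤ lev q) : Set (ℝ × ℝ))) (m : ℕ) :
    ∀ J, ((P ×ˢ P).filter fun e =>
      e.1 ≠ e.2 ∧ rt P e.1 e.2 = m ∧ lev e.1 ≤ lev e.2 ∧ lev e.1 ≤ J).card
        ≤ (J + 1) * P.card := by
  classical
  have step : ∀ J, ((P ×ˢ P).filter fun e =>
      e.1 ≠ e.2 ∧ rt P e.1 e.2 = m ∧ lev e.1 ≤ lev e.2 ∧ lev e.1 ≤ J).card ≤
      P.card + ((P ×ˢ P).filter fun e =>
        e.1 ≠ e.2 ∧ rt P e.1 e.2 = m ∧ lev e.1 < lev e.2 ∧ lev e.2 ≤ J).card := by
    intro J
    rw [card_filter, card_filter, sum_product, sum_product_right, card_eq_sum_ones P,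
      ← sum_add_distrib]
    refine sum_le_sum fun p hp => ?_
    rw [← card_filter, ← card_filter]
    by_cases hJ : lev p ≤ J
    · simp only [hJ, and_true]
      exact (inner_le hg lev hext hp m).trans (le_of_eq (add_comm _ _))
    · simp [hJ]
  intro J
  induction J with
  | zero =>
    refine (step 0).trans ?_
    rw [filter_false_of_mem (s := P ×ˢ P)
      (p := fun e => e.1 ≠ e.2 ∧ rt P e.1 e.2 = m ∧ lev e.1 < lev e.2 ∧ lev e.2 ≤ 0)
      (fun e _ h => by omega)]
    simp
  | succ J ih =>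
    refine (step (J + 1)).trans ?_
    have := card_le_card (monotone_filter_right (P ×ˢ P)
      (p := fun e => e.1 ≠ e.2 ∧ rt P e.1 e.2 = m ∧ lev e.1 < lev e.2 ∧ lev e.2 ≤ J + 1)
      (q := fun e => e.1 ≠ e.2 ∧ rt P e.1 e.2 = m ∧ lev e.1 ≤ lev e.2 ∧ lev e.1 ≤ J)
      (fun e _ h => ⟨h.1, h.2.1, h.2.2.1.le, by omega⟩))
    rw [show (J + 1 + 1) * P.card = P.card + (J + 1) * P.card by ring]
    omega

/-- If a planar set in general position has an assignment of levels below L such that every point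
is outside the convex hull of the other points of at least its level (e.g. L convex layers), then
for every m it has at most 2 L n directed edges with exactly m points strictly to the right. -/
theorem result (P : Finset (ℝ × ℝ))
    (hgen : ∀ p ∈ P, ∀ q ∈ P, ∀ r ∈ P, p ≠ q → r ≠ p → r ≠ q →
      (q.1 - p.1) * (r.2 - p.2) - (q.2 - p.2) * (r.1 - p.1) ≠ 0)
    (L : ℕ) (lev : ℝ × ℝ → ℕ) (hL : ∀ p ∈ P, lev p < L)
    (hext : ∀ p ∈ P, p ∉ convexHull ℝ
      (↑(P.filter fun q => q ≠ p ∧ lev p ≤ lev q) : Set (ℝ × ℝ)))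
    (m : ℕ) :
    ((P ×ˢ P).filter fun e => e.1 ≠ e.2 ∧
      (P.filter fun x => (e.2.1 - e.1.1) * (x.2 - e.1.2) - (e.2.2 - e.1.2) * (x.1 - e.1.1)
        < 0).card = m).card ≤ 2 * L * P.card := by
  classical
  have hg : GP P := hgen
  change ((P ×ˢ P).filter fun e => e.1 ≠ e.2 ∧ rt P e.1 e.2 = m).card ≤ 2 * L * P.card
  rcases P.eq_empty_or_nonempty with h | ⟨p0, hp0⟩
  · subst h; simp
  have hL0 : 0 < L := lt_of_le_of_lt (Nat.zero_le _) (hL p0 hp0)
  obtain ⟨J, rfl⟩ : ∃ J, L = J + 1 := ⟨L - 1, by omega⟩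
  set k := P.card - 2 - m with hk
  set T := fun i => (P ×ˢ P).filter fun e =>
    e.1 ≠ e.2 ∧ rt P e.1 e.2 = i ∧ lev e.1 ≤ lev e.2 ∧ lev e.1 ≤ J with hT
  have hsub : ((P ×ˢ P).filter fun e => e.1 ≠ e.2 ∧ rt P e.1 e.2 = m) ⊆
      T m ∪ (T k).image Prod.swap := by
    rintro ⟨p, q⟩ he
    simp only [mem_filter, mem_product] at he
    obtain ⟨⟨hp, hq⟩, hne, hr⟩ := he
    rw [mem_union]
    rcases le_total (lev p) (lev q) with h | h
    · left
      exact mem_filter.2 ⟨mem_product.2 ⟨hp, hq⟩, hne, hr, h,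
        show lev p ≤ J from Nat.lt_succ_iff.1 (hL p hp)⟩
    · right
      refine mem_image.2 ⟨(q, p), ?_, rfl⟩
      refine mem_filter.2 ⟨mem_product.2 ⟨hq, hp⟩, hne.symm, ?_, h,
        show lev q ≤ J from Nat.lt_succ_iff.1 (hL q hq)⟩
      have := rt_add hg hp hq hne
      simp only
      omega
  have h := (card_le_card hsub).trans (card_union_le _ _)
  have h1 : (T m).card ≤ (J + 1) * P.card := inner_sum hg lev hext m J
  have h2 : ((T k).image Prod.swap).card ≤ (J + 1) * P.card :=
    card_image_le.trans (inner_sum hg lev hext k J)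
  rw [mul_assoc]
  omega

end Vale.Agent.Results.P065.LayeredSets
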