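import Mathlib
import Vale.Agent.Results.P065.LayeredSets

/-! Planar point sets covered by few subsets in convex position have few directed m-edges:
along the alternation at a point, the number of hull crossings behind an edge decreases. -/

namespace Vale.Agent.Results.P065.ConvexCover

open Finset
open Vale.Agent.Results.P065.LayeredSets (cr cr_swap cr_pluck cr_three GP rt alternation)

/-- A half-open half plane of directions. -/
def Up (a : ℝ × ℝ) : Prop := 0 < a.2 ∨ (a.2 = 0 ∧ 0 < a.1)

lemma up_or_neg {a : ℝ × ℝ} (h : a ≠ 0) : Up a ∨ Up (-a) := by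
  simp only [Up, Prod.fst_neg, Prod.snd_neg]
  rcases lt_trichotomy a.2 0 with h2 | h2 | h2
  · exact Or.inr (Or.inl (by linarith))
  · rcases lt_or_gt_of_ne (fun h1 : a.1 = 0 => h (Prod.ext h1 h2)) with h1 | h1
    · exact Or.inr (Or.inr ⟨by linarith, by linarith⟩)
    · exact Or.inl (Or.inr ⟨h2, h1⟩)
  · exact Or.inl (Or.inl h2)

lemma not_up_and_neg {a : ℝ × ℝ} (h : Up a) : ¬ Up (-a) := by
  simp only [Up, Prod.fst_neg, Prod.snd_neg] at h ⊢
  rcases h with h | ⟨h, h'⟩ <;> rintro (g | ⟨g, g'⟩) <;> linarith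

lemma up_nonneg {a : ℝ × ℝ} (h : Up a) : 0 ≤ a.2 := by
  rcases h with h | ⟨h, -⟩ <;> linarith

lemma up_comb {a b : ℝ × ℝ} (ha : Up a) (hb : Up b) {s t : ℝ} (hs : 0 < s) (ht : 0 < t) :
    Up (s • a + t • b) := by
  simp only [Up, Prod.fst_add, Prod.snd_add, Prod.smul_fst, Prod.smul_snd, smul_eq_mul]
  rcases ha with ha | ⟨ha, ha'⟩
  · left; have := mul_pos hs ha; have := mul_nonneg ht.le (up_nonneg hb); linarith
  · rcases hb with hb | ⟨hb, hb'⟩
    · left; have := mul_pos ht hb; rw [ha]; linarith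
    · right; refine ⟨by rw [ha, hb]; ring, ?_⟩
      have := mul_pos hs ha'; have := mul_pos ht hb'; linarith

lemma up_trans {a b c : ℝ × ℝ} (ha : Up a) (hb : Up b) (hc : Up c)
    (hab : 0 < cr a b) (hbc : 0 < cr b c) : 0 < cr a c := by
  have e := cr_three 0 1 a b c
  simp only [zero_mul, one_mul, zero_add] at e
  rw [cr_swap a c] at e
  rcases hb with hb | ⟨hb, hb'⟩
  · rcases ha with ha | ⟨ha, ha'⟩
    · by_contra h; push Not at h
      nlinarith [mul_pos hbc ha, mul_nonneg hab.le (up_nonneg hc), mul_nonpos_of_nonpos_of_nonneg h hb.le]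
    · rcases hc with hc | ⟨hc, hc'⟩
      · by_contra h; push Not at h
        rw [ha] at e
        nlinarith [mul_pos hab hc, mul_nonpos_of_nonpos_of_nonneg h hb.le]
      · exfalso; simp only [cr] at hbc; rw [hc] at hbc; nlinarith [mul_pos hb hc']
  · exfalso; simp only [cr] at hab; rw [hb] at hab; nlinarith [mul_nonneg (up_nonneg ha) hb'.le]

/-- coordinates in the basis a, b -/
lemma decompose {a b : ℝ × ℝ} (h : cr a b ≠ 0) (v : ℝ × ℝ) :
    v = (cr v b / cr a b) • a + (cr a v / cr a b) • b := by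
  ext <;> simp only [Prod.fst_add, Prod.snd_add, Prod.smul_fst, Prod.smul_snd, smul_eq_mul] <;>
    field_simp <;> simp only [cr] <;> ring

lemma cr_neg_right (a v : ℝ × ℝ) : cr a (-v) = -cr a v := by
  simp only [cr, Prod.fst_neg, Prod.snd_neg]; ring

/-- Counting at one point inside one half plane of directions: the edges leaving it are at most
the admissible edges entering it from the opposite side, plus one, plus one for each cone. -/
lemma local_bound {P : Finset (ℝ × ℝ)} (hg : GP P) {p : ℝ × ℝ} (hp : p ∈ P) {m L : ℕ}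
    (U : ℝ × ℝ → Prop)
    (htr : ∀ a b c, U a → U b → U c → 0 < cr a b → 0 < cr b c → 0 < cr a c)
    (hcomb : ∀ a b, U a → U b → ∀ s t : ℝ, 0 < s → 0 < t → U (s • a + t • b))
    (K : Fin L → ℝ × ℝ → Prop)
    (hK : ∀ k x y (s t : ℝ), 0 < s → 0 < t → K k x → K k y → K k (s • x + t • y))
    (F G : Finset (ℝ × ℝ))
    (hF : ∀ q ∈ F, q ∈ P ∧ q ≠ p ∧ rt P p q = m ∧ U (q - p))
    (hG : ∀ q ∈ F, ∀ r ∈ P, r ≠ p → rt P r p = m → U (p - r) →
      r ∈ G ∨ ∃ k, K k (r - p) ∧ ¬ K k (p - q)) :
    F.card ≤ G.card + (L + 1) := by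
  classical
  have comp : ∀ x ∈ F, ∀ y ∈ F, x ≠ y → 0 < cr (x - p) (y - p) ∨ 0 < cr (y - p) (x - p) := by
    intro x hx y hy hxy
    rcases lt_or_gt_of_ne (hg p hp x (hF x hx).1 y (hF y hy).1 (hF x hx).2.1.symm
      (hF y hy).2.1 (Ne.symm hxy)) with h | h
    · right; rw [cr_swap]; linarith
    · left; exact h
  set T := F.filter fun x => ∀ y ∈ F, ¬ 0 < cr (x - p) (y - p) with hT
  have hT1 : T.card ≤ 1 := by
    refine card_le_one.2 fun x hx y hy => ?_
    by_contra hxy
    obtain ⟨hx1, hx2⟩ := mem_filter.1 hx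
    obtain ⟨hy1, hy2⟩ := mem_filter.1 hy
    exact (comp x hx1 y hy1 hxy).elim (hx2 y hy1) (hy2 x hx1)
  have hex : ∀ x ∈ F \ T, ∃ r ∈ P, r ≠ p ∧ rt P r p = m ∧ U (p - r) ∧
      0 < cr (x - p) (p - r) ∧
      ∀ y ∈ F, 0 < cr (x - p) (y - p) → 0 < cr (p - r) (y - p) := by
    intro x hx
    obtain ⟨hxF, hxT⟩ := mem_sdiff.1 hx
    simp only [hT, mem_filter, not_and, not_forall, not_not] at hxT
    obtain ⟨y0, hy0, hxy0⟩ := hxT hxF
    set S := F.filter fun y => 0 < cr (x - p) (y - p) with hS
    obtain ⟨nx, hnx, hmax⟩ := S.exists_max_image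
      (fun y => (S.filter fun z => 0 < cr (y - p) (z - p)).card) ⟨y0, mem_filter.2 ⟨hy0, hxy0⟩⟩
    obtain ⟨hnxF, hab⟩ := mem_filter.1 hnx
    have hfirst : ∀ y ∈ S, y ≠ nx → 0 < cr (nx - p) (y - p) := by
      intro y hy hne
      rcases comp y (mem_filter.1 hy).1 nx hnxF hne with h | h
      · exfalso
        have hlt : (S.filter fun z => 0 < cr (nx - p) (z - p)).card <
            (S.filter fun z => 0 < cr (y - p) (z - p)).card := by
          refine card_lt_card ((ssubset_iff_of_subset ?_).2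
            ⟨nx, mem_filter.2 ⟨hnx, h⟩, ?_⟩)
          · intro z hz
            obtain ⟨hzS, hz⟩ := mem_filter.1 hz
            exact mem_filter.2 ⟨hzS, htr _ _ _ (hF y (mem_filter.1 hy).1).2.2.2
              (hF nx hnxF).2.2.2 (hF z (mem_filter.1 hzS).1).2.2.2 h hz⟩
          · simp [cr, mul_comm]
        exact absurd (hmax y hy) (by omega)
      · exact h
    obtain ⟨r, hrP, hr1, hr2, hr3⟩ :=
      alternation hg hp (hF x hxF).1 (hF nx hnxF).1 hab (hF x hxF).2.2.1 (hF nx hnxF).2.2.1
    have hrp : r ≠ p := by rintro rfl; simp [cr] at hr1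
    have e1 : cr (x - p) (p - r) = -cr (x - p) (r - p) := by
      rw [← neg_sub r p, cr_neg_right]
    have e2 : cr (p - r) (nx - p) = cr (nx - p) (r - p) := by
      rw [cr_swap (nx - p) (p - r), ← neg_sub r p, cr_neg_right, neg_neg]
    have hU : U (p - r) := by
      rw [decompose hab.ne' (p - r)]
      refine hcomb _ _ (hF x hxF).2.2.2 (hF nx hnxF).2.2.2 _ _ (div_pos ?_ hab) (div_pos ?_ hab)
      · rw [e2]; exact hr2
      · rw [e1]; linarith
    refine ⟨r, hrP, hrp, hr3, hU, by rw [e1]; linarith, fun y hy hxy => ?_⟩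
    rcases eq_or_ne y nx with rfl | hne
    · rw [e2]; exact hr2
    · exact htr _ _ _ hU (hF nx hnxF).2.2.2 (hF y hy).2.2.2 (by rw [e2]; exact hr2)
        (hfirst y (mem_filter.2 ⟨hy, hxy⟩) hne)
  choose! g hgP hgp hgm hgU hga hgn using hex
  set good := (F \ T).filter fun x => g x ∈ G with hgood
  have hgoodle : good.card ≤ G.card := by
    refine card_le_card_of_injOn g (fun x hx => (mem_filter.1 hx).2) ?_
    intro x hx y hy hxy
    rw [mem_coe] at hx hy
    have hx' := (mem_filter.1 hx).1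
    have hy' := (mem_filter.1 hy).1
    by_contra hne
    rcases comp x (mem_sdiff.1 hx').1 y (mem_sdiff.1 hy').1 hne with h | h
    · have := hgn x hx' y (mem_sdiff.1 hy').1 h
      rw [hxy, cr_swap] at this
      linarith [hga y hy']
    · have := hgn y hy' x (mem_sdiff.1 hx').1 h
      rw [← hxy, cr_swap] at this
      linarith [hga x hx']
  set bad := fun k => (F \ T).filter fun x => K k (g x - p) ∧ ¬ K k (p - x) with hbad
  have hbad1 : ∀ k, (bad k).card ≤ 1 := by
    intro k
    refine card_le_one.2 fun x hx y hy => ?_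
    by_contra hne
    obtain ⟨hx', hxK, hxn⟩ := mem_filter.1 hx
    obtain ⟨hy', hyK, hyn⟩ := mem_filter.1 hy
    have main : ∀ x ∈ F \ T, ∀ y ∈ F \ T, K k (g x - p) → K k (g y - p) → ¬ K k (p - y) →
        ¬ 0 < cr (x - p) (y - p) := by
      intro x hx y hy hxK hyK hyn h
      have h1 := hgn x hx y (mem_sdiff.1 hy).1 h
      have h2 := hga y hy
      have h3 := htr _ _ _ (hgU x hx) (hF y (mem_sdiff.1 hy).1).2.2.2 (hgU y hy) h1 h2
      apply hyn
      have e := decompose h3.ne' (y - p)
      have : p - y = (cr (y - p) (p - g y) / cr (p - g x) (p - g y)) • (g x - p)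
          + (cr (p - g x) (y - p) / cr (p - g x) (p - g y)) • (g y - p) := by
        calc p - y = -(y - p) := (neg_sub y p).symm
          _ = _ := by
            conv_lhs => rw [e]
            rw [neg_add, ← smul_neg, ← smul_neg, neg_sub, neg_sub]
      rw [this]
      exact hK k _ _ _ _ (div_pos h2 h3) (div_pos h1 h3) hxK hyK
    exact (comp x (mem_sdiff.1 hx').1 y (mem_sdiff.1 hy').1 hne).elim
      (main x hx' y hy' hxK hyK hyn) (main y hy' x hx' hyK hxK hxn)
  have hcov : F ⊆ T ∪ (good ∪ univ.biUnion bad) := by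
    intro x hx
    by_cases hxT : x ∈ T
    · exact mem_union_left _ hxT
    · have hx' : x ∈ F \ T := mem_sdiff.2 ⟨hx, hxT⟩
      refine mem_union_right _ ?_
      rcases hG x hx (g x) (hgP x hx') (hgp x hx') (hgm x hx') (hgU x hx') with h | ⟨k, h⟩
      · exact mem_union_left _ (mem_filter.2 ⟨hx', h⟩)
      · exact mem_union_right _ (mem_biUnion.2 ⟨k, mem_univ _, mem_filter.2 ⟨hx', h⟩⟩)
  have h1 := (card_le_card hcov).trans ((card_union_le _ _).trans
    (Nat.add_le_add_left (card_union_le _ _) _))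
  have h2 : (univ.biUnion bad).card ≤ L := by
    refine (card_biUnion_le).trans ((sum_le_card_nsmul _ _ 1 fun k _ => hbad1 k).trans ?_)
    simp
  omega

variable {L : ℕ} (A : Fin L → Finset (ℝ × ℝ))

/-- the hull of the k-th subset -/
noncomputable def hull (k : Fin L) : Set (ℝ × ℝ) := convexHull ℝ (↑(A k) : Set (ℝ × ℝ))

/-- the open ray from p in direction x meets the k-th hull -/
def Hit (k : Fin L) (p x : ℝ × ℝ) : Prop := ∃ t : ℝ, 0 < t ∧ p + t • x ∈ hull A k

open Classical in
/-- number of hull crossings strictly behind the edge from p to q, each class counting once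
if p is in its hull and twice otherwise -/
noncomputable def depth (p q : ℝ × ℝ) : ℕ :=
  ∑ k, if Hit A k p (p - q) then (if p ∈ hull A k then 1 else 2) else 0

lemma depth_le (p q : ℝ × ℝ) : depth A p q ≤ 2 * L := by
  unfold depth
  refine (sum_le_card_nsmul univ _ 2 fun k _ => ?_).trans (by simp [mul_comm])
  split_ifs <;> omega

lemma hit_comb {k : Fin L} {p x y : ℝ × ℝ} {s t : ℝ} (hs : 0 < s) (ht : 0 < t)
    (hx : Hit A k p x) (hy : Hit A k p y) : Hit A k p (s • x + t • y) := by
  obtain ⟨a, ha, hax⟩ := hx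
  obtain ⟨b, hb, hby⟩ := hy
  have hD : 0 < s * b + t * a := by positivity
  refine ⟨a * b / (s * b + t * a), by positivity, ?_⟩
  have h := (convex_convexHull ℝ (↑(A k) : Set (ℝ × ℝ))) hax hby
    (a := s * b / (s * b + t * a)) (b := t * a / (s * b + t * a))
    (by positivity) (by positivity) (by field_simp)
  unfold hull
  convert h using 1
  rw [smul_add, smul_add, smul_smul, smul_smul, smul_add, smul_smul, smul_smul]
  ext <;> simp only [Prod.fst_add, Prod.snd_add, Prod.smul_fst, Prod.smul_snd, smul_eq_mul] <;>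
    field_simp <;> ring

/-- an extreme point is not strictly between two other points of the hull -/
lemma not_between {B : Set (ℝ × ℝ)} {r u v : ℝ × ℝ} (hr : r ∉ convexHull ℝ B)
    (hu : u ∈ convexHull ℝ (insert r B)) (hv : v ∈ convexHull ℝ (insert r B)) (hne : u ≠ r)
    {t : ℝ} (ht0 : 0 < t) (ht1 : t < 1) (h : r = t • u + (1 - t) • v) : False := by
  rcases B.eq_empty_or_nonempty with rfl | hB
  · rw [insert_empty_eq, convexHull_singleton, Set.mem_singleton_iff] at hu
    exact hne hu
  rw [convexHull_insert hB, mem_convexJoin] at hu hv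
  obtain ⟨_, rfl, b, hb, a, a', ha, ha', haa, hau⟩ := hu
  obtain ⟨_, hr2, b', hb', c, c', hc, hc', hcc, hcv⟩ := hv
  rw [Set.mem_singleton_iff] at hr2
  subst hr2
  have ha'0 : 0 < a' := by
    refine lt_of_le_of_ne ha' fun e => hne ?_
    rw [← hau, ← e, zero_smul, add_zero, show a = 1 by linarith, one_smul]
  set w := t * a' + (1 - t) * c' with hw
  have h1 : 0 < t * a' := mul_pos ht0 ha'0
  have h2 : 0 ≤ (1 - t) * c' := mul_nonneg (by linarith) hc'
  have hwp : 0 < w := by linarith
  apply hr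
  have hz := (convex_convexHull ℝ B) hb hb' (a := t * a' / w) (b := (1 - t) * c' / w)
    (div_nonneg h1.le hwp.le) (div_nonneg h2 hwp.le) (by rw [← add_div, ← hw, div_self hwp.ne'])
  convert hz using 1
  have hA : a = 1 - a' := by linarith
  have hC : c = 1 - c' := by linarith
  rw [← hau, ← hcv, hA, hC] at h
  have e1 := congrArg Prod.fst h
  have e2 := congrArg Prod.snd h
  simp only [Prod.fst_add, Prod.snd_add, Prod.smul_fst, Prod.smul_snd, smul_eq_mul] at e1 e2
  ext <;> simp only [Prod.fst_add, Prod.snd_add, Prod.smul_fst, Prod.smul_snd, smul_eq_mul] <;>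
    field_simp
  · linear_combination e1
  · linear_combination e2

/-- the depth drops along an admissible alternation step -/
lemma depth_lt {p q r : ℝ × ℝ} (hrp : r ≠ p) {c : Fin L} (hrc : r ∈ A c)
    (hconv : r ∉ convexHull ℝ (↑((A c).erase r) : Set (ℝ × ℝ)))
    (hsub : ∀ k, Hit A k p (r - p) → Hit A k p (p - q)) :
    depth A r p < depth A p q := by
  classical
  have lift : ∀ k, Hit A k r (r - p) → Hit A k p (r - p) := by
    rintro k ⟨t, ht, h⟩
    refine ⟨1 + t, by linarith, ?_⟩
    rwa [show p + (1 + t) • (r - p) = r + t • (r - p) by rw [add_smul, one_smul]; abel]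
  have between : ∀ k, Hit A k r (r - p) → p ∈ hull A k → ∃ (t : ℝ) (u : ℝ × ℝ), 0 < t ∧ t < 1 ∧
      u ∈ hull A k ∧ r = t • p + (1 - t) • u := by
    rintro k ⟨t, ht, h⟩ hp
    refine ⟨t / (1 + t), r + t • (r - p), by positivity, (div_lt_one (by linarith)).2 (by linarith),
      h, ?_⟩
    ext <;> simp only [Prod.fst_add, Prod.snd_add, Prod.smul_fst, Prod.smul_snd, smul_eq_mul,
      Prod.fst_sub, Prod.snd_sub] <;> field_simp <;> ring
  have hrH : r ∈ hull A c := subset_convexHull ℝ _ (mem_coe.2 hrc)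
  refine sum_lt_sum (fun k _ => ?_) ⟨c, mem_univ _, ?_⟩
  · by_cases h : Hit A k r (r - p)
    · rw [if_pos h, if_pos (hsub k (lift k h))]
      by_cases hp : p ∈ hull A k
      · obtain ⟨t, u, ht0, ht1, hu, e⟩ := between k h hp
        have : r ∈ hull A k := by
          rw [e]
          exact (convex_convexHull ℝ (↑(A k) : Set (ℝ × ℝ))) hp hu ht0.le (by linarith) (by ring)
        rw [if_pos this, if_pos hp]
      · rw [if_neg hp]; split_ifs <;> omega
    · rw [if_neg h]; exact Nat.zero_le _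
  · rw [if_pos (hsub c ⟨1, one_pos, by rwa [one_smul, add_sub_cancel]⟩)]
    by_cases hp : p ∈ hull A c
    · have : ¬ Hit A c r (r - p) := fun h => by
        obtain ⟨t, u, ht0, ht1, hu, e⟩ := between c h hp
        have hins : (↑(A c) : Set (ℝ × ℝ)) = insert r (↑((A c).erase r) : Set (ℝ × ℝ)) := by
          rw [← coe_insert, insert_erase hrc]
        exact not_between hconv (by rw [← hins]; exact hp) (by rw [← hins]; exact hu)
          (Ne.symm hrp) ht0 ht1 e
      rw [if_neg this, if_pos hp]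
      exact one_pos
    · rw [if_neg hp, if_pos hrH]
      split_ifs <;> omega

open Classical in
/-- m-edges of depth below s -/
noncomputable def low (P : Finset (ℝ × ℝ)) (m s : ℕ) : Finset ((ℝ × ℝ) × (ℝ × ℝ)) :=
  (P ×ˢ P).filter fun e => e.1 ≠ e.2 ∧ rt P e.1 e.2 = m ∧ depth A e.1 e.2 < s

lemma low_le {P : Finset (ℝ × ℝ)} (hg : GP P) (hcov : ∀ p ∈ P, ∃ k, p ∈ A k)
    (hconv : ∀ k, ∀ p ∈ A k, p ∉ convexHull ℝ (↑((A k).erase p) : Set (ℝ × ℝ))) (m : ℕ) :
    ∀ s, (low A P m s).card ≤ s * (2 * (L + 1) * P.card) := by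
  classical
  intro s
  induction s with
  | zero => simp [low]
  | succ s ih =>
    suffices (low A P m (s + 1)).card ≤ 2 * (L + 1) * P.card + (low A P m s).card by
      rw [Nat.succ_mul]; omega
    unfold low
    rw [card_filter, card_filter, sum_product, sum_product_right, card_eq_sum_ones P, mul_sum,
      ← sum_add_distrib]
    refine sum_le_sum fun p hp => ?_
    rw [← card_filter, ← card_filter]
    set Q := P.filter fun q => p ≠ q ∧ rt P p q = m ∧ depth A p q < s + 1 with hQ
    set B := P.filter fun r => r ≠ p ∧ rt P r p = m ∧ depth A r p < s with hB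
    have key : ∀ U : ℝ × ℝ → Prop,
        (∀ a b c, U a → U b → U c → 0 < cr a b → 0 < cr b c → 0 < cr a c) →
        (∀ a b, U a → U b → ∀ s t : ℝ, 0 < s → 0 < t → U (s • a + t • b)) →
        (Q.filter fun q => U (q - p)).card ≤ (B.filter fun r => U (p - r)).card + (L + 1) := by
      intro U h1 h2
      refine local_bound hg hp (m := m) U h1 h2 (fun k x => Hit A k p x)
        (fun k x y s t hs ht hx hy => hit_comb A hs ht hx hy) _ _ ?_ ?_
      · intro q hq
        obtain ⟨hq, hU⟩ := mem_filter.1 hq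
        obtain ⟨hqP, hpq, hr, -⟩ := mem_filter.1 hq
        exact ⟨hqP, hpq.symm, hr, hU⟩
      · intro q hq r hrP hrp hrm hU
        obtain ⟨hqP, -, -, hd⟩ := mem_filter.1 (mem_filter.1 hq).1
        by_cases h : ∀ k, Hit A k p (r - p) → Hit A k p (p - q)
        · left
          obtain ⟨c, hc⟩ := hcov r hrP
          have := depth_lt A hrp hc (hconv c r hc) h
          exact mem_filter.2 ⟨mem_filter.2 ⟨hrP, hrp, hrm, by omega⟩, hU⟩
        · right
          push Not at h
          exact h
    have k1 := key Up (fun a b c => up_trans) (fun a b ha hb s t => up_comb ha hb)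
    have k2 := key (fun a => Up (-a))
      (fun a b c ha hb hc hab hbc => by
        have e : ∀ u v : ℝ × ℝ, cr (-u) (-v) = cr u v := fun u v => by
          simp only [cr, Prod.fst_neg, Prod.snd_neg]; ring
        rw [← e]; exact up_trans ha hb hc (by rwa [e]) (by rwa [e]))
      (fun a b ha hb s t hs ht => by
        have := up_comb ha hb hs ht
        rwa [neg_add, ← smul_neg, ← smul_neg])
    have hQle : Q.card ≤ (Q.filter fun q => Up (q - p)).card
        + (Q.filter fun q => Up (-(q - p))).card := by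
      refine (card_le_card fun q hq => ?_).trans (card_union_le _ _)
      exact mem_union.2 ((up_or_neg (sub_ne_zero.2 (mem_filter.1 hq).2.1.symm)).imp
        (fun h => mem_filter.2 ⟨hq, h⟩) (fun h => mem_filter.2 ⟨hq, h⟩))
    have hBle : (B.filter fun r => Up (p - r)).card + (B.filter fun r => Up (-(p - r))).card
        ≤ B.card := by
      rw [← card_union_of_disjoint (disjoint_filter.2 fun r _ h => not_up_and_neg h)]
      exact card_le_card (union_subset (filter_subset _ _) (filter_subset _ _))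
    omega

/-- If a planar point set in general position is covered by L sets, each in convex position, then
for every m it has at most 2 (L+1) (2L+1) n directed edges with exactly m points to the right. -/
theorem result (P : Finset (ℝ × ℝ))
    (hgen : ∀ p ∈ P, ∀ q ∈ P, ∀ r ∈ P, p ≠ q → r ≠ p → r ≠ q →
      (q.1 - p.1) * (r.2 - p.2) - (q.2 - p.2) * (r.1 - p.1) ≠ 0)
    (L : ℕ) (A : Fin L → Finset (ℝ × ℝ)) (hcov : ∀ p ∈ P, ∃ k, p ∈ A k)
    (hconv : ∀ k, ∀ p ∈ A k, p ∉ convexHull ℝ (↑((A k).erase p) : Set (ℝ × ℝ)))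
    (m : ℕ) :
    ((P ×ˢ P).filter fun e => e.1 ≠ e.2 ∧
      (P.filter fun x => (e.2.1 - e.1.1) * (x.2 - e.1.2) - (e.2.2 - e.1.2) * (x.1 - e.1.1)
        < 0).card = m).card ≤ 2 * (L + 1) * (2 * L + 1) * P.card := by
  classical
  change ((P ×ˢ P).filter fun e => e.1 ≠ e.2 ∧ rt P e.1 e.2 = m).card ≤ _
  refine le_trans (card_le_card fun e he => ?_)
    ((low_le A hgen hcov hconv m (2 * L + 1)).trans (le_of_eq (by ring)))
  obtain ⟨h0, h1, h2⟩ := mem_filter.1 he
  exact mem_filter.2 ⟨h0, h1, h2, Nat.lt_succ_of_le (depth_le A _ _)⟩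

end Vale.Agent.Results.P065.ConvexCover
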